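import Vale.Agent.P096.Defs
import Vale.Agent.P104.Sim.Interfaces

/-!
# P096: continuity of the commutant from the distance formula of P104

If derivations of C*-algebras into `B(H)` by self-adjoint operators have implementers close to the
commutant with a universal constant (`DistOut`, proved for P104), close von Neumann algebras have
close commutants, with a universal Lipschitz constant.
-/

noncomputable section

namespace Vale.Agent.P096

open Vale.Agent.P104

universe u

variable {H : Type u} [NormedAddCommGroup H] [InnerProductSpace ℂ H] [CompleteSpace H]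

lemma norm_commutator_le {M N : VonNeumannAlgebra H} {r : ℝ} (h : kkDist M N < r) {T : H →L[ℂ] H}
    (hT : T ∈ M.commutant) {a : H →L[ℂ] H} (ha : a ∈ N) :
    ‖T * a - a * T‖ ≤ 2 * r * ‖T‖ * ‖a‖ := by
  rcases (norm_nonneg a).eq_or_lt with h0 | h0
  · rw [norm_eq_zero.1 h0.symm]; simp
  set c : ℂ := ((‖a‖⁻¹ : ℝ) : ℂ) with hc
  have hca : ‖c • a‖ ≤ 1 := by
    rw [norm_smul, hc, Complex.norm_real, norm_inv, norm_norm, inv_mul_cancel₀ h0.ne']
  obtain ⟨b, hb, -, hab⟩ := kk_exists_near (M := N) (N := M) (x := c • a) (by rwa [kk_comm])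
    (SMulMemClass.smul_mem (s := N.toStarSubalgebra) c ha) hca
  have hcomm : T * b = b * T := (VonNeumannAlgebra.mem_commutant_iff.1 hT b hb).symm
  have he : c • (T * a - a * T) = T * (c • a - b) - (c • a - b) * T := by
    rw [mul_sub, sub_mul, mul_smul_comm, smul_mul_assoc, hcomm, smul_sub]; abel
  have h1 : ‖c • (T * a - a * T)‖ ≤ 2 * r * ‖T‖ := by
    rw [he]
    refine (norm_sub_le _ _).trans ?_
    have e1 := (norm_mul_le T (c • a - b)).trans (mul_le_mul_of_nonneg_left hab.le (norm_nonneg T))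
    have e2 := (norm_mul_le (c • a - b) T).trans (mul_le_mul_of_nonneg_right hab.le (norm_nonneg T))
    linarith
  rw [norm_smul, hc, Complex.norm_real, norm_inv, norm_norm, inv_mul_le_iff₀ h0] at h1
  linarith

/-- Close algebras have close commutants. -/
theorem commutant_continuity (hD : Sim.DistOut.{u}) :
    ∃ k : ℝ, ∀ (H : Type u) [NormedAddCommGroup H] [InnerProductSpace ℂ H] [CompleteSpace H]
      (M N : VonNeumannAlgebra H), kkDist M.commutant N.commutant ≤ k * kkDist M N := by
  obtain ⟨k, hk⟩ := hD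
  refine ⟨8 * |k|, fun H _ _ _ M N => ?_⟩
  have one : ∀ (M N : VonNeumannAlgebra H) (r : ℝ), kkDist M N < r → ∀ x ∈ M.commutant, ‖x‖ ≤ 1 →
      ∃ y ∈ N.commutant, ‖y‖ ≤ 1 ∧ ‖x - y‖ ≤ 8 * |k| * r := by
    intro M N r hr x hx hx1
    have hr0 : 0 ≤ r := (Metric.hausdorffDist_nonneg.trans_lt hr).le
    have : IsClosed (N.toStarSubalgebra : Set (H →L[ℂ] H)) := by
      change IsClosed (N : Set (H →L[ℂ] H))
      rw [← N.centralizer_centralizer]
      exact Set.isClosed_centralizer _
    let _ : CStarAlgebra N.toStarSubalgebra := StarSubalgebra.cstarAlgebra N.toStarSubalgebra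
    let σ : N.toStarSubalgebra →⋆ₐ[ℂ] (H →L[ℂ] H) := N.toStarSubalgebra.subtype
    have part : ∀ T ∈ M.commutant, IsSelfAdjoint T → ‖T‖ ≤ 1 →
        ∃ T' ∈ N.commutant, ‖T - T'‖ ≤ |k| * (2 * r) := by
      intro T hT hs hT1
      obtain ⟨T', h1, -, h2⟩ := hk N.toStarSubalgebra H σ T (2 * r) (by positivity) hs fun a => by
        refine (norm_commutator_le hr hT a.2).trans ?_
        show 2 * r * ‖T‖ * ‖(a : H →L[ℂ] H)‖ ≤ 2 * r * ‖(a : H →L[ℂ] H)‖
        exact mul_le_mul_of_nonneg_right (mul_le_of_le_one_right (by positivity) hT1) (norm_nonneg _)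
      refine ⟨T', VonNeumannAlgebra.mem_commutant_iff.2 fun y hy => h1 ⟨y, hy⟩, h2.trans ?_⟩
      exact mul_le_mul_of_nonneg_right (le_abs_self k) (by positivity)
    have hsm : ∀ (c : ℂ) {T : H →L[ℂ] H}, T ∈ M.commutant → c • T ∈ M.commutant := fun c _ hT =>
      SMulMemClass.smul_mem (s := M.commutant.toStarSubalgebra) c hT
    set R : H →L[ℂ] H := (2⁻¹ : ℂ) • (x + star x) with hR
    set S : H →L[ℂ] H := (-(2⁻¹ : ℂ) * Complex.I) • (x - star x) with hS
    have hxs : ‖star x‖ ≤ 1 := by rwa [norm_star]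
    have hR1 : ‖R‖ ≤ 1 := by
      rw [hR, norm_smul, norm_inv, Complex.norm_two]
      linarith [norm_add_le x (star x)]
    have hS1 : ‖S‖ ≤ 1 := by
      rw [hS, norm_smul, norm_mul, norm_neg, norm_inv, Complex.norm_two, Complex.norm_I]
      linarith [norm_sub_le x (star x)]
    obtain ⟨R', hR', hRR⟩ := part R (hsm _ (add_mem hx (star_mem hx)))
      (by simp [isSelfAdjoint_iff, hR, star_smul, add_comm]) hR1
    obtain ⟨S', hS', hSS⟩ := part S (hsm _ (sub_mem hx (star_mem hx))) (by
      rw [isSelfAdjoint_iff, hS, star_smul, star_sub, star_star, ← neg_sub x (star x), smul_neg,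
        ← neg_smul]
      congr 1
      simp) hS1
    have hsum : x = R + Complex.I • S := by
      rw [hR, hS, smul_smul]
      match_scalars <;> ring_nf <;> simp [Complex.I_sq] <;> norm_num
    set y : H →L[ℂ] H := R' + Complex.I • S' with hy
    have hyN : y ∈ N.commutant :=
      add_mem hR' (SMulMemClass.smul_mem (s := N.commutant.toStarSubalgebra) Complex.I hS')
    have hxy : ‖x - y‖ ≤ 4 * |k| * r := by
      rw [hsum, hy, add_sub_add_comm, ← smul_sub]
      refine (norm_add_le _ _).trans ?_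
      rw [norm_smul, Complex.norm_I, one_mul]
      linarith
    have hmax : (0 : ℝ) < max 1 ‖y‖ := lt_max_of_lt_left one_pos
    refine ⟨(((max 1 ‖y‖)⁻¹ : ℝ) : ℂ) • y,
      SMulMemClass.smul_mem (s := N.commutant.toStarSubalgebra) _ hyN, ?_, ?_⟩
    · rw [norm_smul, Complex.norm_real, norm_inv, Real.norm_of_nonneg hmax.le,
        inv_mul_le_iff₀ hmax, mul_one]
      exact le_max_right _ _
    · have hy1 : ‖y‖ ≤ 1 + 4 * |k| * r := by
        have := norm_le_insert x y
        linarith
      have h2 : ‖y - (((max 1 ‖y‖)⁻¹ : ℝ) : ℂ) • y‖ ≤ 4 * |k| * r := by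
        have e : y - (((max 1 ‖y‖)⁻¹ : ℝ) : ℂ) • y = ((1 - (max 1 ‖y‖)⁻¹ : ℝ) : ℂ) • y := by
          rw [Complex.ofReal_sub, sub_smul, Complex.ofReal_one, one_smul]
        rw [e, norm_smul, Complex.norm_real,
          Real.norm_of_nonneg (sub_nonneg.2 (inv_le_one_of_one_le₀ (le_max_left _ _)))]
        rcases le_total ‖y‖ 1 with h | h
        · rw [max_eq_left h, inv_one, sub_self, zero_mul]
          positivity
        · rw [max_eq_right h, sub_mul, inv_mul_cancel₀ (by linarith), one_mul]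
          linarith
      calc ‖x - (((max 1 ‖y‖)⁻¹ : ℝ) : ℂ) • y‖
          = ‖(x - y) + (y - (((max 1 ‖y‖)⁻¹ : ℝ) : ℂ) • y)‖ := by rw [sub_add_sub_cancel]
        _ ≤ 8 * |k| * r := (norm_add_le _ _).trans (by linarith)
  refine le_of_forall_pos_le_add fun ε hε => ?_
  set r := kkDist M N + ε / (8 * |k| + 1) with hr
  have h0 : 0 ≤ kkDist M N := Metric.hausdorffDist_nonneg
  have hlt : kkDist M N < r := lt_add_of_pos_right _ (by positivity)
  refine (kk_le (r := 8 * |k| * r) (by positivity) (fun x hx hx1 => one M N r hlt x hx hx1)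
    (fun x hx hx1 => one N M r (by rwa [kk_comm]) x hx hx1)).trans ?_
  rw [hr, mul_add, add_le_add_iff_left, ← mul_div_assoc, div_le_iff₀ (by positivity)]
  nlinarith [abs_nonneg k]

end Vale.Agent.P096
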