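import Mathlib

/-!
Definitions for P096 (Kadison-Kastler perturbation conjecture).
-/

namespace Vale.Agent.P096

universe u

variable {H : Type u} [NormedAddCommGroup H] [InnerProductSpace ℂ H] [CompleteSpace H]

/-- The Kadison-Kastler distance: Hausdorff distance of the closed unit balls in operator norm. -/
noncomputable def kkDist (M N : VonNeumannAlgebra H) : ℝ :=
  Metric.hausdorffDist ((M : Set (H →L[ℂ] H)) ∩ Metric.closedBall 0 1)
    ((N : Set (H →L[ℂ] H)) ∩ Metric.closedBall 0 1)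

/-- The commutant contains two isometries with orthogonal ranges
(for a nonzero space this says that the commutant is properly infinite). -/
def HasProperlyInfiniteCommutant (M : VonNeumannAlgebra H) : Prop :=
  ∃ s t : H →L[ℂ] H, s ∈ M.commutant ∧ t ∈ M.commutant ∧
    star s * s = 1 ∧ star t * t = 1 ∧ star s * t = 0

/-- The strong Kadison-Kastler conjecture. -/
def StrongKK : Prop :=
  ∀ ε : ℝ, 0 < ε → ∃ δ : ℝ, 0 < δ ∧
    ∀ (H : Type u) [NormedAddCommGroup H] [InnerProductSpace ℂ H] [CompleteSpace H]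
      (M N : VonNeumannAlgebra H), kkDist M N < δ →
        ∃ v ∈ unitary (H →L[ℂ] H), ‖v - 1‖ < ε ∧
          (fun x => v * x * star v) '' (M : Set (H →L[ℂ] H)) = (N : Set (H →L[ℂ] H))

/-- The weakened form: the modulus may depend on the algebra, both algebras have properly
infinite commutants, and only a similarity close to the identity is asked for. -/
def PointwiseSimilarityKK : Prop :=
  ∀ (H : Type u) [NormedAddCommGroup H] [InnerProductSpace ℂ H] [CompleteSpace H]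
    (M : VonNeumannAlgebra H), HasProperlyInfiniteCommutant M →
    ∀ ε : ℝ, 0 < ε → ∃ δ : ℝ, 0 < δ ∧
      ∀ N : VonNeumannAlgebra H, HasProperlyInfiniteCommutant N → kkDist M N < δ →
        ∃ S : (H →L[ℂ] H)ˣ, ‖(S : H →L[ℂ] H) - 1‖ < ε ∧
          (fun x => (S : H →L[ℂ] H) * x * ↑S⁻¹) '' (M : Set (H →L[ℂ] H))
            = (N : Set (H →L[ℂ] H))

/-- The strong conjecture for separable Hilbert spaces. -/
def StrongKKSep : Prop :=
  ∀ ε : ℝ, 0 < ε → ∃ δ : ℝ, 0 < δ ∧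
    ∀ (H : Type u) [NormedAddCommGroup H] [InnerProductSpace ℂ H] [CompleteSpace H]
      [TopologicalSpace.SeparableSpace H]
      (M N : VonNeumannAlgebra H), kkDist M N < δ →
        ∃ v ∈ unitary (H →L[ℂ] H), ‖v - 1‖ < ε ∧
          (fun x => v * x * star v) '' (M : Set (H →L[ℂ] H)) = (N : Set (H →L[ℂ] H))

/-- The weakened form for separable Hilbert spaces. -/
def PointwiseSimilarityKKSep : Prop :=
  ∀ (H : Type u) [NormedAddCommGroup H] [InnerProductSpace ℂ H] [CompleteSpace H]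
    [TopologicalSpace.SeparableSpace H]
    (M : VonNeumannAlgebra H), HasProperlyInfiniteCommutant M →
    ∀ ε : ℝ, 0 < ε → ∃ δ : ℝ, 0 < δ ∧
      ∀ N : VonNeumannAlgebra H, HasProperlyInfiniteCommutant N → kkDist M N < δ →
        ∃ S : (H →L[ℂ] H)ˣ, ‖(S : H →L[ℂ] H) - 1‖ < ε ∧
          (fun x => (S : H →L[ℂ] H) * x * ↑S⁻¹) '' (M : Set (H →L[ℂ] H))
            = (N : Set (H →L[ℂ] H))

lemma ball_nonempty (M : VonNeumannAlgebra H) :
    ((M : Set (H →L[ℂ] H)) ∩ Metric.closedBall 0 1).Nonempty := by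
  refine ⟨(0 : H →L[ℂ] H), zero_mem M, ?_⟩
  simp

lemma kk_exists_near {M N : VonNeumannAlgebra H} {r : ℝ} (h : kkDist M N < r)
    {x : H →L[ℂ] H} (hx : x ∈ M) (hx1 : ‖x‖ ≤ 1) :
    ∃ y ∈ N, ‖y‖ ≤ 1 ∧ ‖x - y‖ < r := by
  obtain ⟨y, ⟨hy, hy1⟩, hd⟩ := Metric.exists_dist_lt_of_hausdorffDist_lt
    (show x ∈ (M : Set (H →L[ℂ] H)) ∩ Metric.closedBall 0 1 from ⟨hx, by simpa using hx1⟩) h
    (Metric.hausdorffEDist_ne_top_of_nonempty_of_bounded (ball_nonempty M) (ball_nonempty N)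
      (Metric.isBounded_closedBall.subset Set.inter_subset_right)
      (Metric.isBounded_closedBall.subset Set.inter_subset_right))
  exact ⟨y, hy, by simpa using hy1, by simpa [dist_eq_norm] using hd⟩

lemma kk_comm (M N : VonNeumannAlgebra H) : kkDist M N = kkDist N M :=
  Metric.hausdorffDist_comm

lemma kk_le {M N : VonNeumannAlgebra H} {r : ℝ} (hr : 0 ≤ r)
    (h1 : ∀ x ∈ M, ‖x‖ ≤ 1 → ∃ y ∈ N, ‖y‖ ≤ 1 ∧ ‖x - y‖ ≤ r)
    (h2 : ∀ x ∈ N, ‖x‖ ≤ 1 → ∃ y ∈ M, ‖y‖ ≤ 1 ∧ ‖x - y‖ ≤ r) :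
    kkDist M N ≤ r := by
  refine Metric.hausdorffDist_le_of_mem_dist hr ?_ ?_
  · rintro x ⟨hx, hx1⟩
    obtain ⟨y, hy, hy1, hd⟩ := h1 x hx (by simpa using hx1)
    exact ⟨y, ⟨hy, by simpa using hy1⟩, by simpa [dist_eq_norm] using hd⟩
  · rintro x ⟨hx, hx1⟩
    obtain ⟨y, hy, hy1, hd⟩ := h2 x hx (by simpa using hx1)
    exact ⟨y, ⟨hy, by simpa using hy1⟩, by simpa [dist_eq_norm] using hd⟩

end Vale.Agent.P096
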