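import Vale.Agent.P096.Complete

/-!
# P096: closeness at every matrix level, stated with entries
-/

noncomputable section

namespace Vale.Agent.P096

open Vale.Agent.P104 Vale.Agent.P104.Sim Vale.Agent.P104.Sim.Amplify

universe u

variable {H : Type u} [NormedAddCommGroup H] [InnerProductSpace ℂ H] [CompleteSpace H]

/-- Every contractive finite square matrix over `M` is within `r`, in operator norm on the direct
sum of copies of `H`, of a contractive matrix over `N`. -/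
def MatWithin (M N : VonNeumannAlgebra H) (r : ℝ) : Prop :=
  ∀ (n : ℕ) (X : Fin n → Fin n → (H →L[ℂ] H)), (∀ i j, X i j ∈ M) → MatContraction X →
    ∃ Y : Fin n → Fin n → (H →L[ℂ] H), (∀ i j, Y i j ∈ N) ∧ MatContraction Y ∧
      ∀ v : Fin n → H, ∑ i, ‖∑ j, (X i j - Y i j) (v j)‖ ^ 2 ≤ r ^ 2 * ∑ j, ‖v j‖ ^ 2

theorem commutant_and_matWithin (hD : DistOut.{u}) :
    ∃ k : ℝ, ∀ (H : Type u) [NormedAddCommGroup H] [InnerProductSpace ℂ H] [CompleteSpace H]
      (M N : VonNeumannAlgebra H), kkDist M.commutant N.commutant ≤ k * kkDist M N ∧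
        ∀ r : ℝ, k * kkDist M N < r → MatWithin M N r := by
  obtain ⟨k, hk⟩ := commutant_and_complete_closeness hD
  refine ⟨k, fun H _ _ _ M N => ⟨(hk H M N).1, fun r hr n X hX hX1 => ?_⟩⟩
  rcases Nat.eq_zero_or_pos n with rfl | hn
  · exact ⟨X, fun i => Fin.elim0 i, hX1, fun v => by simp⟩
  set Z : Amp H n →L[ℂ] Amp H n := ∑ i, ∑ j, inj i ∘L X i j ∘L pr j with hZ
  have hZv : ∀ (v : Amp H n) (i : Fin n), Z v i = ∑ j, X i j (v j) := by
    intro v i
    simp only [hZ, FunLike.coe_sum, Finset.sum_apply, WithLp.ofLp_sum,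
      ContinuousLinearMap.comp_apply, inj_apply, pr_apply]
    rw [Finset.sum_eq_single i] <;> simp +contextual [eq_comm]
  have hent : ∀ i j, ent Z i j = X i j := fun i j => by
    refine ContinuousLinearMap.ext fun x => ?_
    rw [ent_apply, hZv]
    simp [inj_apply, apply_ite]
  have hZM : Z ∈ ampN M n := mem_ampN.2 fun i j => by rw [hent]; exact hX i j
  have hZ1 : ‖Z‖ ≤ 1 := ContinuousLinearMap.opNorm_le_bound _ zero_le_one fun v => by
    refine le_of_pow_le_pow_left₀ two_ne_zero (by positivity) ?_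
    rw [one_mul, PiLp.norm_sq_eq_of_L2, PiLp.norm_sq_eq_of_L2]
    simp only [hZv]
    exact hX1 _
  obtain ⟨W, hW, hW1, hZW⟩ := kk_exists_near (((hk H M N).2 n hn).trans_lt hr) hZM hZ1
  have hbound : ∀ (T : Amp H n →L[ℂ] Amp H n) (c : ℝ), ‖T‖ ≤ c → ∀ v : Fin n → H,
      ∑ i, ‖∑ j, ent T i j (v j)‖ ^ 2 ≤ c ^ 2 * ∑ j, ‖v j‖ ^ 2 := by
    intro T c hT v
    set w : Amp H n := WithLp.toLp 2 v
    have h1 : ‖T w‖ ^ 2 ≤ (c * ‖w‖) ^ 2 :=
      pow_le_pow_left₀ (norm_nonneg _) (T.le_of_opNorm_le hT w) 2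
    rw [mul_pow, PiLp.norm_sq_eq_of_L2, PiLp.norm_sq_eq_of_L2] at h1
    simpa [apply_eq_sum, w] using h1
  refine ⟨ent W, fun i j => mem_ampN.1 hW i j, fun v => by simpa using hbound W 1 hW1 v, fun v => ?_⟩
  have h := hbound (Z - W) r hZW.le v
  have e : ∀ i j, ent (Z - W) i j = X i j - ent W i j := fun i j => by
    rw [← hent]
    refine ContinuousLinearMap.ext fun x => ?_
    simp [ent_apply]
  simpa [e] using h

end Vale.Agent.P096
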