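import Mathlib
import Vale.Agent.P096.Defs

/-!
A similarity close to the identity between von Neumann algebras can be replaced by a unitary
close to the identity.
-/

open scoped ENNReal

namespace Vale.Agent.P096

universe u

variable {H : Type u} [NormedAddCommGroup H] [InnerProductSpace ℂ H] [CompleteSpace H]

lemma isClosed_vna (M : VonNeumannAlgebra H) : IsClosed (M : Set (H →L[ℂ] H)) := by
  rw [← M.centralizer_centralizer, Set.centralizer]
  simp only [Set.ofPred_forall]
  exact isClosed_iInter fun g => isClosed_iInter fun _ =>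
    isClosed_eq (by fun_prop) (by fun_prop)

/-- Conjugation by a unit, as a map. -/
def conjDefect (a b : H →L[ℂ] H) (x : H →L[ℂ] H) : H →L[ℂ] H := a * x * b - x

lemma conjDefect_norm_le (a b x : H →L[ℂ] H) :
    ‖conjDefect a b x‖ ≤ (‖a - 1‖ * ‖b‖ + ‖b - 1‖) * ‖x‖ := by
  have h : conjDefect a b x = (a - 1) * x * b + x * (b - 1) := by
    simp only [conjDefect]; noncomm_ring
  rw [h]
  refine (norm_add_le _ _).trans ?_
  have h1 : ‖(a - 1) * x * b‖ ≤ ‖a - 1‖ * ‖x‖ * ‖b‖ :=
    (norm_mul_le _ _).trans (by gcongr; exact norm_mul_le _ _)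
  have h2 : ‖x * (b - 1)‖ ≤ ‖x‖ * ‖b - 1‖ := norm_mul_le _ _
  nlinarith

/-- The iteration converging to the square root of conjugation. -/
noncomputable def sqrtIter (a b : H →L[ℂ] H) : ℕ → (H →L[ℂ] H) → (H →L[ℂ] H)
  | 0 => fun _ => 0
  | n + 1 => fun x => (1 / 2 : ℂ) • (conjDefect a b x - sqrtIter a b n (sqrtIter a b n x))

lemma sqrtIter_mem (M : VonNeumannAlgebra H) {a b : H →L[ℂ] H}
    (h : ∀ x ∈ M, a * x * b ∈ M) : ∀ n, ∀ x ∈ M, sqrtIter a b n x ∈ M := by
  intro n
  induction n with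
  | zero => intro x _; exact zero_mem M
  | succ n ih =>
    intro x hx
    exact SMulMemClass.smul_mem (s := M.toStarSubalgebra) _
      (sub_mem (sub_mem (h x hx) hx) (ih _ (ih _ hx)))

/-- If `Ad (r ^ 2)` preserves `M` and `r` is close to `1`, then `Ad r` preserves `M`. -/
lemma conj_sqrt_mem (M : VonNeumannAlgebra H) {r r' : H →L[ℂ] H}
    (hr : ‖r - 1‖ ≤ 1 / 16) (hr' : ‖r' - 1‖ ≤ 1 / 8) (hb : ‖r'‖ ≤ 2)
    (h : ∀ x ∈ M, r * r * x * (r' * r') ∈ M) {x : H →L[ℂ] H} (hx : x ∈ M) :
    r * x * r' ∈ M := by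
  set Z := conjDefect r r' with hZ
  have hZn : ∀ y, ‖Z y‖ ≤ 1 / 4 * ‖y‖ := fun y => by
    refine (conjDefect_norm_le r r' y).trans ?_
    gcongr
    nlinarith [norm_nonneg (r - 1), norm_nonneg r']
  have hadd : ∀ y z, Z (y - z) = Z y - Z z := fun y z => by
    simp only [hZ, conjDefect]; noncomm_ring
  have hfix : ∀ y, Z y = (1 / 2 : ℂ) • (conjDefect (r * r) (r' * r') y - Z (Z y)) := fun y => by
    have h2 : conjDefect (r * r) (r' * r') y - Z (Z y) = (2 : ℂ) • Z y := by
      simp only [hZ, conjDefect]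
      rw [two_smul]
      noncomm_ring
    rw [h2, smul_smul]
    norm_num
  set f := sqrtIter (r * r) (r' * r')
  have key : ∀ n y, ‖f n y - Z y‖ ≤ 1 / 4 * (3 / 4) ^ n * ‖y‖ := by
    intro n
    induction n with
    | zero => intro y; simpa [f, sqrtIter] using hZn y
    | succ n ih =>
      intro y
      have hp : (3 / 4 : ℝ) ^ n ≤ 1 := pow_le_one₀ (by norm_num) (by norm_num)
      have hf : ‖f n y‖ ≤ 1 / 2 * ‖y‖ := by
        have h3 : ‖f n y‖ ≤ ‖f n y - Z y‖ + ‖Z y‖ := by
          simpa using norm_add_le (f n y - Z y) (Z y)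
        nlinarith [ih y, hZn y, norm_nonneg y]
      have e : f (n + 1) y - Z y
          = (1 / 2 : ℂ) • ((Z (Z y) - Z (f n y)) + (Z (f n y) - f n (f n y))) := by
        conv_lhs => rw [hfix y]
        simp only [f, sqrtIter]
        rw [← smul_sub]
        congr 1
        abel
      rw [e, norm_smul]
      have hq : ‖(1 / 2 : ℂ)‖ = 1 / 2 := by norm_num
      rw [hq, ← hadd]
      have h4 := norm_add_le (Z (Z y - f n y)) (Z (f n y) - f n (f n y))
      have h5 := hZn (Z y - f n y)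
      have h6 := ih y
      rw [norm_sub_rev] at h6
      have h7 := ih (f n y)
      rw [norm_sub_rev] at h7
      have hp0 : 0 ≤ (3 / 4 : ℝ) ^ n := by positivity
      rw [pow_succ]
      nlinarith [norm_nonneg y]
  have hlim : Filter.Tendsto (fun n => f n x) Filter.atTop (nhds (Z x)) := by
    rw [tendsto_iff_norm_sub_tendsto_zero]
    refine squeeze_zero (fun n => norm_nonneg _) (fun n => key n x) ?_
    have h0 := tendsto_pow_atTop_nhds_zero_of_lt_one (by norm_num : (0 : ℝ) ≤ 3 / 4) (by norm_num)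
    simpa using (h0.const_mul (1 / 4 : ℝ)).mul_const ‖x‖
  have hmem : Z x ∈ M := (isClosed_vna M).mem_of_tendsto hlim
    (Filter.Eventually.of_forall fun n => sqrtIter_mem M h n x hx)
  have := add_mem hmem hx
  simpa [hZ, conjDefect] using this

/-- A similarity close to the identity gives a unitary close to the identity. -/
lemma unitary_of_similarity (M N : VonNeumannAlgebra H) {η : ℝ} (hη : η ≤ 1 / 100)
    (T : H →L[ℂ] H) (hT : ‖T - 1‖ ≤ η)
    (h1 : ∀ x ∈ M, ∃ y ∈ N, T * x = y * T)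
    (h2 : ∀ y ∈ N, ∃ x ∈ M, T * x = y * T) :
    ∃ v ∈ unitary (H →L[ℂ] H), ‖v - 1‖ ≤ 16 * η ∧
      (fun x => v * x * star v) '' (M : Set (H →L[ℂ] H)) = (N : Set (H →L[ℂ] H)) := by
  have hη0 : 0 ≤ η := (norm_nonneg _).trans hT
  have hone : ‖(1 : H →L[ℂ] H)‖ ≤ 1 := ContinuousLinearMap.norm_id_le
  have hTs : ‖star T - 1‖ ≤ η := by rw [← norm_star (star T - 1), star_sub]; simpa using hT
  have hTn : ‖T‖ ≤ 1 + η := by
    have := norm_add_le (T - 1) 1
    simp only [sub_add_cancel] at this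
    linarith
  set a := star T * T with ha
  have hsa : IsSelfAdjoint a := IsSelfAdjoint.star_mul_self T
  have hac : ‖a - 1‖ ≤ 3 * η := by
    have e : a - 1 = (star T - 1) * T + (T - 1) := by rw [ha]; noncomm_ring
    rw [e]
    refine (norm_add_le _ _).trans ?_
    have := norm_mul_le (star T - 1) T
    nlinarith [norm_nonneg T]
  have hspec : ∀ t ∈ spectrum ℝ a, |t - 1| ≤ 3 * η := by
    intro t ht
    have e : a - 1 = cfc (fun s : ℝ => s - 1) a := by
      rw [cfc_sub _ _ a, cfc_id' ℝ a, cfc_const_one ℝ a]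
    have h := norm_apply_le_norm_cfc (fun s : ℝ => s - 1) a ht
    rw [← e] at h
    exact (Real.norm_eq_abs _ ▸ h).trans hac
  have hpos : ∀ t ∈ spectrum ℝ a, 0 < t := fun t ht => by
    have := abs_le.1 (hspec t ht); linarith
  have hc1 : ContinuousOn (fun t : ℝ => Real.sqrt t) (spectrum ℝ a) :=
    Real.continuous_sqrt.continuousOn
  have hc2 : ContinuousOn (fun t : ℝ => (Real.sqrt t)⁻¹) (spectrum ℝ a) :=
    hc1.inv₀ fun t ht => (Real.sqrt_pos.2 (hpos t ht)).ne'
  set r := cfc (fun t : ℝ => Real.sqrt t) a with hrdef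
  set r' := cfc (fun t : ℝ => (Real.sqrt t)⁻¹) a with hr'def
  have hrr : r * r = a := by
    rw [hrdef, ← cfc_mul _ _ a hc1 hc1]
    rw [cfc_congr (g := fun t : ℝ => t) (fun t ht => Real.mul_self_sqrt (hpos t ht).le),
      cfc_id' ℝ a]
  have hrr' : r * r' = 1 := by
    rw [hrdef, hr'def, ← cfc_mul _ _ a hc1 hc2]
    rw [cfc_congr (g := fun _ : ℝ => 1)
      (fun t ht => mul_inv_cancel₀ (Real.sqrt_pos.2 (hpos t ht)).ne'), cfc_const_one ℝ a]
  have hr'r : r' * r = 1 := by
    rw [hrdef, hr'def, ← cfc_mul _ _ a hc2 hc1]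
    rw [cfc_congr (g := fun _ : ℝ => 1)
      (fun t ht => inv_mul_cancel₀ (Real.sqrt_pos.2 (hpos t ht)).ne'), cfc_const_one ℝ a]
  have hrsa : star r = r := (cfc_predicate _ a : IsSelfAdjoint r).star_eq
  have hr'sa : star r' = r' := (cfc_predicate _ a : IsSelfAdjoint r').star_eq
  have hsq : ∀ t ∈ spectrum ℝ a, |Real.sqrt t - 1| ≤ 3 * η ∧ 1 / 2 ≤ Real.sqrt t := by
    intro t ht
    have h := hspec t ht
    have hs := Real.mul_self_sqrt (hpos t ht).le
    have hs0 := Real.sqrt_nonneg t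
    have hh := abs_le.1 h
    refine ⟨abs_le.2 ⟨?_, ?_⟩, ?_⟩ <;> nlinarith
  have hrn : ‖r - 1‖ ≤ 3 * η := by
    have e : r - 1 = cfc (fun t : ℝ => Real.sqrt t - 1) a := by
      rw [cfc_sub _ _ a hc1, cfc_const_one ℝ a]
    rw [e]
    exact norm_cfc_le (by linarith) fun t ht => by
      rw [Real.norm_eq_abs]; exact (hsq t ht).1
  have hr'n : ‖r' - 1‖ ≤ 6 * η := by
    have e : r' - 1 = cfc (fun t : ℝ => (Real.sqrt t)⁻¹ - 1) a := by
      rw [cfc_sub _ _ a hc2, cfc_const_one ℝ a]
    rw [e]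
    refine norm_cfc_le (by linarith) fun t ht => ?_
    obtain ⟨h3, h4⟩ := hsq t ht
    have hsp : 0 < Real.sqrt t := by linarith
    have e2 : (Real.sqrt t)⁻¹ - 1 = -(Real.sqrt t - 1) / Real.sqrt t := by field_simp; ring
    rw [Real.norm_eq_abs, e2, abs_div, abs_neg, abs_of_pos hsp, div_le_iff₀ hsp]
    nlinarith
  have hr'b : ‖r'‖ ≤ 1 + 6 * η := by
    have := norm_add_le (r' - 1) 1
    simp only [sub_add_cancel] at this
    linarith
  -- `Ad a` preserves `M`
  have ha' : ∀ x ∈ M, a * x * (r' * r') ∈ M := by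
    intro x hx
    obtain ⟨y, hy, hxy⟩ := h1 x hx
    obtain ⟨x', hx', hx'y⟩ := h2 (star y) (star_mem hy)
    have h5 : star x' * star T = star T * y := by
      simpa using congrArg star hx'y
    have e : a * x = star x' * a := by
      rw [ha, mul_assoc, hxy, ← mul_assoc, ← h5, mul_assoc]
    have e2 : a * x * (r' * r') = star x' := by
      rw [e, ← hrr]
      simp only [mul_assoc]
      rw [← mul_assoc r r', hrr', one_mul, hrr', mul_one]
    exact e2 ▸ star_mem hx'
  have hsqmem : ∀ x ∈ M, r * x * r' ∈ M := fun x hx =>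
    conj_sqrt_mem M (by linarith) (by linarith) (by linarith)
      (fun y hy => by rw [hrr]; exact ha' y hy) hx
  have hinvmem : ∀ x ∈ M, r' * x * r ∈ M := fun x hx => by
    have := star_mem (hsqmem (star x) (star_mem hx))
    simpa [hrsa, hr'sa, mul_assoc] using this
  -- units
  have hTu : IsUnit T := by
    have := isUnit_one_sub_of_norm_lt_one (x := (1 : H →L[ℂ] H) - T)
      (by rw [norm_sub_rev]; linarith)
    simpa using this
  set v := T * r' with hv
  have hvs : star v = r' * star T := by rw [hv, star_mul, hr'sa]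
  have hvv : star v * v = 1 := by
    rw [hvs, hv]
    calc r' * star T * (T * r') = r' * (r * r) * r' := by rw [hrr, ha]; noncomm_ring
      _ = (r' * r) * (r * r') := by noncomm_ring
      _ = 1 := by rw [hr'r, hrr', one_mul]
  have hvv' : v * star v = 1 := by
    have hu : IsUnit v := hTu.mul ⟨⟨r', r, hr'r, hrr'⟩, rfl⟩
    obtain ⟨w, hw⟩ := hu
    have : star v = ↑w⁻¹ := by
      rw [← mul_one (↑w⁻¹ : H →L[ℂ] H)]
      calc star v = star v * (↑w * ↑w⁻¹) := by simp
        _ = (star v * v) * ↑w⁻¹ := by rw [hw, ← mul_assoc]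
        _ = ↑w⁻¹ * 1 := by rw [hvv, one_mul, mul_one]
    rw [this, ← hw, Units.mul_inv]
  refine ⟨v, Unitary.mem_iff.2 ⟨hvv, hvv'⟩, ?_, ?_⟩
  · have e : v - 1 = T * (r' - 1) + (T - 1) := by rw [hv]; noncomm_ring
    rw [e]
    refine (norm_add_le _ _).trans ?_
    have := norm_mul_le T (r' - 1)
    nlinarith [norm_nonneg (r' - 1), norm_nonneg T]
  · apply Set.Subset.antisymm
    · rintro _ ⟨x, hx, rfl⟩
      obtain ⟨y, hy, hxy⟩ := h1 _ (hinvmem x hx)
      have e : v * x = y * v := by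
        calc v * x = T * (r' * x * r) * r' := by
              rw [hv]; simp only [mul_assoc, hrr', mul_one]
          _ = y * v := by rw [hxy, hv, mul_assoc]
      show v * x * star v ∈ N
      rw [e, mul_assoc, hvv', mul_one]
      exact hy
    · intro y hy
      obtain ⟨x, hx, hxy⟩ := h2 y hy
      refine ⟨r * x * r', hsqmem x hx, ?_⟩
      have e : v * (r * x * r') = y * v := by
        calc v * (r * x * r') = T * (r' * r) * x * r' := by rw [hv]; noncomm_ring
          _ = y * v := by rw [hr'r, mul_one, hxy, hv, mul_assoc]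
      show v * (r * x * r') * star v = y
      rw [e, mul_assoc, hvv', mul_one]

end Vale.Agent.P096
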