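import Vale.Agent.P096.Commutant
import Vale.Agent.P104.Sim.Amplify

/-!
# P096: close algebras are completely close, from the distance formula of P104

The algebra of matrices over `M` is the commutant of the diagonal copies of the commutant of `M`,
so commutant continuity applied twice moves closeness to all matrix levels with a uniform constant.
-/

noncomputable section

namespace Vale.Agent.P096

open Vale.Agent.P104 Vale.Agent.P104.Sim Vale.Agent.P104.Sim.Amplify

universe u

variable {K : Type u} [NormedAddCommGroup K] [InnerProductSpace ℂ K] [CompleteSpace K] {n : ℕ}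

lemma diag_mem_ampN_commutant {M : VonNeumannAlgebra K} {x : K →L[ℂ] K} (hx : x ∈ M.commutant) :
    diag n x ∈ (ampN M n).commutant := by
  rw [VonNeumannAlgebra.mem_commutant_iff]
  intro Y hY
  refine ext_ent fun i j => ?_
  rw [ent_diag_mul, ent_mul_diag]
  exact VonNeumannAlgebra.mem_commutant_iff.1 hx _ (mem_ampN.1 hY i j)

lemma exists_diag_of_mem_ampN_commutant {M : VonNeumannAlgebra K} (i₀ : Fin n)
    {Z : Amp K n →L[ℂ] Amp K n} (hZ : Z ∈ (ampN M n).commutant) :
    ∃ x ∈ M.commutant, Z = diag n x := by
  have hc := VonNeumannAlgebra.mem_commutant_iff.1 hZ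
  have hd : ∀ i j, ent Z i j = if i = j then ent Z i₀ i₀ else 0 := fun i j => by
    refine ContinuousLinearMap.ext fun x => ?_
    have h1 := congrArg (fun f : Amp K n →L[ℂ] Amp K n => f (inj i₀ x) i)
      (hc _ ((isUnits (N := M)).mem j i₀))
    simp only [mul_apply_eq_comp, units, ContinuousLinearMap.comp_apply, pr_inj, if_true,
      inj_apply] at h1
    rw [ent_apply, ← h1]
    split_ifs with hij
    · rfl
    · simp
  refine ⟨ent Z i₀ i₀, VonNeumannAlgebra.mem_commutant_iff.2 fun y hy => ?_,
    ext_ent fun i j => by rw [ent_diag]; exact hd i j⟩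
  rw [← ent_diag_mul, ← ent_mul_diag, hc _ (diag_mem hy)]

lemma kkDist_amp_commutant_le (i₀ : Fin n) (M N : VonNeumannAlgebra K) {r : ℝ}
    (h : kkDist M.commutant N.commutant < r) :
    kkDist (ampN M n).commutant (ampN N n).commutant ≤ r := by
  have hr : 0 ≤ r := (Metric.hausdorffDist_nonneg.trans_lt h).le
  refine kk_le hr ?_ ?_ <;>
  · intro Z hZ hZ1
    obtain ⟨x, hx, rfl⟩ := exists_diag_of_mem_ampN_commutant i₀ hZ
    obtain ⟨y, hy, hy1, hxy⟩ := kk_exists_near (by first | exact h | rwa [kk_comm]) hx
      ((le_norm_diag i₀ x).trans hZ1)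
    exact ⟨diag n y, diag_mem_ampN_commutant hy, (norm_diag_le y).trans hy1,
      by rw [← diag_sub]; exact (norm_diag_le _).trans hxy.le⟩

/-- Close algebras have close commutants and are completely close, with one universal constant. -/
theorem commutant_and_complete_closeness (hD : DistOut.{u}) :
    ∃ k : ℝ, ∀ (H : Type u) [NormedAddCommGroup H] [InnerProductSpace ℂ H] [CompleteSpace H]
      (M N : VonNeumannAlgebra H), kkDist M.commutant N.commutant ≤ k * kkDist M N ∧
        ∀ n : ℕ, 0 < n → kkDist (ampN M n) (ampN N n) ≤ k * kkDist M N := by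
  obtain ⟨k, hk⟩ := commutant_continuity hD
  refine ⟨max |k| (|k| * |k|), fun H _ _ _ M N => ⟨(hk H M N).trans ?_, fun n hn => ?_⟩⟩
  · exact mul_le_mul_of_nonneg_right ((le_abs_self k).trans (le_max_left _ _))
      Metric.hausdorffDist_nonneg
  let i₀ : Fin n := ⟨0, hn⟩
  refine le_of_forall_pos_le_add fun ε hε => ?_
  have h0 : 0 ≤ kkDist M N := Metric.hausdorffDist_nonneg
  have hlt : kkDist M.commutant N.commutant < |k| * kkDist M N + ε / (|k| + 1) :=
    ((hk H M N).trans (mul_le_mul_of_nonneg_right (le_abs_self k) h0)).trans_lt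
      (lt_add_of_pos_right _ (by positivity))
  have h1 := kkDist_amp_commutant_le i₀ M N hlt
  have h2 := hk (Amp H n) (ampN M n).commutant (ampN N n).commutant
  rw [VonNeumannAlgebra.commutant_commutant, VonNeumannAlgebra.commutant_commutant] at h2
  refine h2.trans (((mul_le_mul_of_nonneg_right (le_abs_self k) Metric.hausdorffDist_nonneg).trans
    (mul_le_mul_of_nonneg_left h1 (abs_nonneg k))).trans ?_)
  rw [mul_add, ← mul_assoc]
  refine add_le_add (mul_le_mul_of_nonneg_right (le_max_right _ _) h0) ?_
  rw [← mul_div_assoc, div_le_iff₀ (by positivity)]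
  nlinarith [abs_nonneg k]

end Vale.Agent.P096
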