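import Mathlib
import Vale.Agent.P096.Defs

/-!
Countable direct sums, with infinite multiplicity, of von Neumann algebras.
-/

set_option linter.unusedSectionVars false

open scoped ENNReal lp

namespace Vale.Agent.P096

universe u

section

variable {H : ℕ → Type u} [∀ n, NormedAddCommGroup (H n)] [∀ n, InnerProductSpace ℂ (H n)]
  [∀ n, CompleteSpace (H n)]

/-- The fibres. -/
abbrev Fib (H : ℕ → Type u) : ℕ × ℕ → Type u := fun p => H p.1

/-- The amplified direct sum space. -/
abbrev BigSpace (H : ℕ → Type u) [∀ n, NormedAddCommGroup (H n)] : Type u := lp (Fib H) 2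

/-- Inclusion of a fibre. -/
noncomputable def inj (p : ℕ × ℕ) : H p.1 →L[ℂ] BigSpace H :=
  lp.singleContinuousLinearMap ℂ (Fib H) 2 p

/-- Projection to a fibre. -/
noncomputable def prj (p : ℕ × ℕ) : BigSpace H →L[ℂ] H p.1 :=
  lp.evalCLM ℂ (Fib H) 2 p

@[simp] lemma prj_apply (p : ℕ × ℕ) (v : BigSpace H) : prj p v = v p := rfl

lemma inj_apply (p : ℕ × ℕ) (x : H p.1) : (inj p x : BigSpace H) = lp.single 2 p x := rfl

lemma prj_inj_self (p : ℕ × ℕ) (x : H p.1) : (inj p x : BigSpace H) p = x := by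
  rw [inj_apply, lp.single_apply_self]

lemma prj_inj_ne {p q : ℕ × ℕ} (x : H p.1) (h : q ≠ p) : (inj p x : BigSpace H) q = 0 := by
  rw [inj_apply, lp.single_apply_ne _ _ _ h]

lemma norm_prj_le (p : ℕ × ℕ) : ‖prj (H := H) p‖ ≤ 1 :=
  ContinuousLinearMap.opNorm_le_bound _ zero_le_one fun v => by
    simpa using lp.norm_apply_le_norm (by norm_num) v p

lemma norm_inj_le (p : ℕ × ℕ) : ‖inj (H := H) p‖ ≤ 1 :=
  ContinuousLinearMap.opNorm_le_bound _ zero_le_one fun v => by
    rw [inj_apply, lp.norm_single (by norm_num), one_mul]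

lemma adjoint_prj (p : ℕ × ℕ) : ContinuousLinearMap.adjoint (prj (H := H) p) = inj p := by
  symm
  rw [ContinuousLinearMap.eq_adjoint_iff]
  intro x y
  rw [inj_apply, lp.inner_single_left]
  rfl

lemma ext_coord {X Y : BigSpace H →L[ℂ] BigSpace H} (h : ∀ v p, X v p = Y v p) : X = Y :=
  ContinuousLinearMap.ext fun v => lp.ext (funext (h v))

lemma norm_le_of_coord {X : BigSpace H →L[ℂ] BigSpace H} {C : ℝ} (hC : 0 ≤ C)
    (h : ∀ v p, ‖X v p‖ ≤ C * ‖v p‖) : ‖X‖ ≤ C := by
  refine ContinuousLinearMap.opNorm_le_bound _ hC fun v => ?_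
  have h2 : ‖X v‖ ≤ ‖(C : ℂ) • v‖ := lp.norm_mono (by norm_num) fun p => by
    refine (h v p).trans ?_
    rw [lp.coeFn_smul, Pi.smul_apply, norm_smul, Complex.norm_real, Real.norm_eq_abs,
      abs_of_nonneg hC]
  rw [norm_smul, Complex.norm_real, Real.norm_eq_abs, abs_of_nonneg hC] at h2
  exact h2

/-- `X` is block diagonal with blocks `f n`, repeated along the multiplicity index. -/
def IsBlock (X : BigSpace H →L[ℂ] BigSpace H) (f : ∀ n, H n →L[ℂ] H n) : Prop :=
  ∀ v p, X v p = f p.1 (v p)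

lemma IsBlock.prj_comp {X : BigSpace H →L[ℂ] BigSpace H} {f} (h : IsBlock X f) (p : ℕ × ℕ) :
    prj p ∘L X = f p.1 ∘L prj p :=
  ContinuousLinearMap.ext fun v => h v p

lemma IsBlock.comp_inj {X : BigSpace H →L[ℂ] BigSpace H} {f} (h : IsBlock X f) (p : ℕ × ℕ)
    (x : H p.1) : X (inj p x) = inj p (f p.1 x) := by
  refine lp.ext (funext fun q => ?_)
  rw [h]
  rcases eq_or_ne q p with rfl | hq
  · rw [prj_inj_self, prj_inj_self]
  · rw [prj_inj_ne _ hq, prj_inj_ne _ hq, map_zero]

lemma IsBlock.block_eq {X : BigSpace H →L[ℂ] BigSpace H} {f} (h : IsBlock X f) (n : ℕ) :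
    f n = prj (n, 0) ∘L X ∘L inj (n, 0) := by
  ext x
  show f n x = X (inj (n, 0) x) (n, 0)
  rw [h.comp_inj, prj_inj_self]

lemma IsBlock.block_norm_le {X : BigSpace H →L[ℂ] BigSpace H} {f} (h : IsBlock X f) (n : ℕ) :
    ‖f n‖ ≤ ‖X‖ := by
  rw [h.block_eq n]
  refine (ContinuousLinearMap.opNorm_comp_le _ _).trans ?_
  refine (mul_le_mul (norm_prj_le _) (ContinuousLinearMap.opNorm_comp_le _ _) (norm_nonneg _)
    zero_le_one).trans ?_
  rw [one_mul]
  exact (mul_le_mul_of_nonneg_left (norm_inj_le _) (norm_nonneg _)).trans (by rw [mul_one])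

lemma IsBlock.star {X : BigSpace H →L[ℂ] BigSpace H} {f} (h : IsBlock X f) :
    IsBlock (star X) (fun n => star (f n)) := by
  intro v p
  refine ext_inner_left ℂ fun x => ?_
  have e : ∀ w : BigSpace H, inner ℂ x (w p) = inner ℂ (inj p x : BigSpace H) w := fun w => by
    rw [inj_apply, lp.inner_single_left]
  show inner ℂ x (Star.star X v p) = inner ℂ x (Star.star (f p.1) (v p))
  rw [e, ContinuousLinearMap.star_eq_adjoint, ContinuousLinearMap.adjoint_inner_right,
    h.comp_inj, ContinuousLinearMap.star_eq_adjoint]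
  refine Eq.trans ?_ (ContinuousLinearMap.adjoint_inner_right _ _ _).symm
  rw [inj_apply, lp.inner_single_left]

lemma memℓp_block (f : ∀ n, H n →L[ℂ] H n) (C : ℝ) (hf : ∀ n, ‖f n‖ ≤ C) (v : BigSpace H) :
    Memℓp (E := Fib H) (fun p => f p.1 (v p)) 2 := by
  refine Memℓp.mono' (g := fun p => (C : ℂ) • v p) ((lp.memℓp v).const_smul (C : ℂ)) fun p => ?_
  rw [norm_smul, Complex.norm_real, Real.norm_eq_abs]
  refine ((f p.1).le_opNorm _).trans ?_
  gcongr
  exact (hf _).trans (le_abs_self C)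

/-- The block diagonal operator with bounded blocks. -/
noncomputable def block (f : ∀ n, H n →L[ℂ] H n) (C : ℝ) (hf : ∀ n, ‖f n‖ ≤ C) :
    BigSpace H →L[ℂ] BigSpace H :=
  LinearMap.mkContinuous
    { toFun := fun v => ⟨fun p => f p.1 (v p), memℓp_block f C hf v⟩
      map_add' := fun v w => lp.ext (funext fun p => map_add (f p.1) (v p) (w p))
      map_smul' := fun c v => lp.ext (funext fun p => map_smul (f p.1) c (v p)) }
    |C| fun v => by
      have h2 : ‖(⟨fun p => f p.1 (v p), memℓp_block f C hf v⟩ : BigSpace H)‖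
          ≤ ‖(C : ℂ) • v‖ := lp.norm_mono (by norm_num) fun p => by
        rw [lp.coeFn_smul, Pi.smul_apply, norm_smul, Complex.norm_real, Real.norm_eq_abs]
        refine ((f p.1).le_opNorm _).trans ?_
        gcongr
        exact (hf _).trans (le_abs_self C)
      rw [norm_smul, Complex.norm_real, Real.norm_eq_abs] at h2
      exact h2

lemma block_isBlock (f : ∀ n, H n →L[ℂ] H n) (C : ℝ) (hf : ∀ n, ‖f n‖ ≤ C) :
    IsBlock (block f C hf) f := fun _ _ => rfl

/-- The carrier of the amplified direct sum. -/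
def sumStar (M : ∀ n, VonNeumannAlgebra (H n)) :
    StarSubalgebra ℂ (BigSpace H →L[ℂ] BigSpace H) where
  carrier := {X | ∃ f : ∀ n, H n →L[ℂ] H n, (∀ n, f n ∈ M n) ∧ IsBlock X f}
  mul_mem' := by
    rintro X Y ⟨f, hf, hX⟩ ⟨g, hg, hY⟩
    exact ⟨fun n => f n * g n, fun n => mul_mem (hf n) (hg n), fun v p => by
      show X (Y v) p = f p.1 (g p.1 (v p))
      rw [hX, hY]⟩
  add_mem' := by
    rintro X Y ⟨f, hf, hX⟩ ⟨g, hg, hY⟩
    exact ⟨fun n => f n + g n, fun n => add_mem (hf n) (hg n), fun v p => by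
      show X v p + Y v p = f p.1 (v p) + g p.1 (v p)
      rw [hX, hY]⟩
  algebraMap_mem' c := by
    refine ⟨fun n => algebraMap ℂ _ c,
      fun n => algebraMap_mem (M n).toStarSubalgebra c, fun v p => ?_⟩
    simp [Algebra.algebraMap_eq_smul_one]
  star_mem' := by
    rintro X ⟨f, hf, hX⟩
    exact ⟨fun n => star (f n), fun n => star_mem (hf n), hX.star⟩

/-- The amplified direct sum as a von Neumann algebra. -/
noncomputable def sumAlg (M : ∀ n, VonNeumannAlgebra (H n)) :
    VonNeumannAlgebra (BigSpace H) where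
  toStarSubalgebra := sumStar M
  centralizer_centralizer' := by
    refine Set.Subset.antisymm ?_ Set.subset_centralizer_centralizer
    intro X hX
    rw [Set.mem_centralizer_iff] at hX
    have hZ : ∀ (n i j : ℕ) (y : H n →L[ℂ] H n), y ∈ (M n).commutant →
        (inj (n, i) ∘L y ∘L prj (n, j)) * X = X * (inj (n, i) ∘L y ∘L prj (n, j)) := by
      intro n i j y hy
      apply hX
      rw [Set.mem_centralizer_iff]
      rintro W ⟨f, hf, hW⟩
      ext1 v
      show W (inj (n, i) (y (v (n, j)))) = inj (n, i) (y (W v (n, j)))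
      rw [hW.comp_inj, hW v (n, j)]
      congr 1
      exact congrArg (fun T : H n →L[ℂ] H n => T (v (n, j)))
        (VonNeumannAlgebra.mem_commutant_iff.1 hy (f n) (hf n))
    refine ⟨fun n => prj (n, 0) ∘L X ∘L inj (n, 0), fun n => ?_, fun v p => ?_⟩
    · rw [← SetLike.mem_coe, ← (M n).centralizer_centralizer, Set.mem_centralizer_iff]
      intro y hy
      have hy' : y ∈ (M n).commutant := by
        rw [← SetLike.mem_coe, VonNeumannAlgebra.coe_commutant]; exact hy
      ext x
      have h := congrArg (fun T : BigSpace H →L[ℂ] BigSpace H =>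
        T (inj (n, 0) x) (n, 0)) (hZ n 0 0 y hy')
      simpa [prj_inj_self] using h
    · obtain ⟨n, i⟩ := p
      have h := congrArg (fun T : BigSpace H →L[ℂ] BigSpace H => T v (n, 0))
        (hZ n 0 i 1 (one_mem _))
      simpa [prj_inj_self] using h

lemma mem_sumAlg {M : ∀ n, VonNeumannAlgebra (H n)} {X : BigSpace H →L[ℂ] BigSpace H} :
    X ∈ sumAlg M ↔ ∃ f : ∀ n, H n →L[ℂ] H n, (∀ n, f n ∈ M n) ∧ IsBlock X f :=
  Iff.rfl

/-- A shift of the multiplicity index along an injection with range decided by `q`. -/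
lemma exists_shift (M : ∀ n, VonNeumannAlgebra (H n)) (b : ℕ) :
    ∃ R : BigSpace H →L[ℂ] BigSpace H, R ∈ (sumAlg M).commutant ∧ star R * R = 1 ∧
      (∀ v p, p.2 % 2 ≠ b % 2 → R v p = 0) := by
  set φ : ℕ × ℕ → ℕ × ℕ := fun p => (p.1, 2 * p.2 + b % 2) with hφ
  have hb : b % 2 < 2 := Nat.mod_lt _ (by norm_num)
  have hinj : Function.Injective φ := by
    intro p q h
    simp only [hφ, Prod.mk.injEq] at h
    exact Prod.ext h.1 (by omega)
  let R0 : BigSpace H → ∀ p : ℕ × ℕ, Fib H p := fun v p =>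
    if p.2 % 2 = b % 2 then v (p.1, p.2 / 2) else 0
  have hval : ∀ v p, R0 v (φ p) = v p := by
    intro v p
    obtain ⟨n, i⟩ := p
    simp only [R0, hφ]
    rw [if_pos (by omega), show (2 * i + b % 2) / 2 = i by omega]
  have hsupp : ∀ v, Function.support (fun p => ‖R0 v p‖ ^ (2 : ℝ≥0∞).toReal) ⊆ Set.range φ := by
    intro v p hp
    by_cases h : p.2 % 2 = b % 2
    · exact ⟨(p.1, p.2 / 2), Prod.ext rfl (show 2 * (p.2 / 2) + b % 2 = p.2 by omega)⟩
    · exact absurd (by simp [R0, h]) hp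
  have h20 : 0 < (2 : ℝ≥0∞).toReal := by norm_num
  have hmem : ∀ v, Memℓp (R0 v) 2 := by
    intro v
    refine memℓp_gen ?_
    rw [← hinj.summable_iff (fun p hp => by
      by_contra hne; exact hp (hsupp v hne))]
    simpa [Function.comp_def, hval] using (lp.memℓp v).summable h20
  have hnorm : ∀ v, ‖(⟨R0 v, hmem v⟩ : BigSpace H)‖ = ‖v‖ := by
    intro v
    refine (Real.rpow_left_inj (norm_nonneg _) (norm_nonneg _) h20.ne').1 ?_
    rw [lp.norm_rpow_eq_tsum h20, lp.norm_rpow_eq_tsum h20]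
    rw [← hinj.tsum_eq (hsupp v)]
    exact tsum_congr fun p => by rw [hval]
  let R : BigSpace H →L[ℂ] BigSpace H := LinearMap.mkContinuous
    { toFun := fun v => (⟨R0 v, hmem v⟩ : BigSpace H)
      map_add' := fun v w => lp.ext (funext fun p => by
        show R0 (v + w) p = R0 v p + R0 w p
        by_cases h : p.2 % 2 = b % 2 <;> simp [R0, h])
      map_smul' := fun c v => lp.ext (funext fun p => by
        show R0 (c • v) p = c • R0 v p
        by_cases h : p.2 % 2 = b % 2 <;> simp [R0, h]) }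
    1 (fun v => by rw [one_mul]; exact (hnorm v).le)
  refine ⟨R, ?_, ?_, fun v p hp => if_neg hp⟩
  · rw [VonNeumannAlgebra.mem_commutant_iff]
    intro X hX
    obtain ⟨f, hf, hXb⟩ := mem_sumAlg.1 hX
    refine ext_coord fun v p => ?_
    show X (R v) p = R0 (X v) p
    rw [hXb]
    show f p.1 (R0 v p) = R0 (X v) p
    by_cases h : p.2 % 2 = b % 2
    · simp only [R0, h, ↓reduceIte]
      exact (hXb v (p.1, p.2 / 2)).symm
    · simp [R0, h]
  · rw [ContinuousLinearMap.star_eq_adjoint]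
    exact (ContinuousLinearMap.norm_map_iff_adjoint_comp_self R).1 hnorm

lemma sumAlg_properlyInfinite (M : ∀ n, VonNeumannAlgebra (H n)) :
    HasProperlyInfiniteCommutant (sumAlg M) := by
  obtain ⟨s, hs, hs1, hs0⟩ := exists_shift M 0
  obtain ⟨t, ht, ht1, ht0⟩ := exists_shift M 1
  refine ⟨s, t, hs, ht, hs1, ht1, ?_⟩
  ext1 v
  refine ext_inner_left ℂ fun w => ?_
  show inner ℂ w (star s (t v)) = inner ℂ w 0
  rw [ContinuousLinearMap.star_eq_adjoint, ContinuousLinearMap.adjoint_inner_right,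
    inner_zero_right, lp.inner_eq_tsum]
  have h : ∀ p, inner ℂ (s w p) (t v p) = (0 : ℂ) := fun p => by
    by_cases hp : p.2 % 2 = 0
    · rw [ht0 v p (by omega), inner_zero_right]
    · rw [hs0 w p (by omega), inner_zero_left]
  rw [tsum_congr h, tsum_zero]

end

end Vale.Agent.P096
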