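import Mathlib
import Vale.Agent.P096.Defs
import Vale.Agent.P096.Polar
import Vale.Agent.P096.DirectSum

/-!
The strong Kadison-Kastler conjecture is equivalent to a much weaker looking form.
-/

set_option linter.unusedSectionVars false

open scoped ENNReal lp

namespace Vale.Agent.P096

universe u

lemma pointwise_of_strong (h : StrongKK.{u}) : PointwiseSimilarityKK.{u} := by
  intro H _ _ _ M _ ε hε
  obtain ⟨δ, hδ, hd⟩ := h ε hε
  refine ⟨δ, hδ, fun N _ hN => ?_⟩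
  obtain ⟨v, hv, hv1, himg⟩ := hd H M N hN
  obtain ⟨h1, h2⟩ := Unitary.mem_iff.1 hv
  exact ⟨⟨v, star v, h2, h1⟩, hv1, himg⟩

section

variable {H : ℕ → Type u} [∀ n, NormedAddCommGroup (H n)] [∀ n, InnerProductSpace ℂ (H n)]
  [∀ n, CompleteSpace (H n)]

lemma half_dist (A B : ∀ n, VonNeumannAlgebra (H n)) (k : ℕ) {r : ℝ} (hr : 0 ≤ r)
    (hne : ∀ n, n ≠ k → A n = B n)
    (hk : ∀ x ∈ A k, ‖x‖ ≤ 1 → ∃ y ∈ B k, ‖y‖ ≤ 1 ∧ ‖x - y‖ ≤ r) :
    ∀ X ∈ sumAlg A, ‖X‖ ≤ 1 → ∃ Y ∈ sumAlg B, ‖Y‖ ≤ 1 ∧ ‖X - Y‖ ≤ r := by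
  intro X hX hX1
  obtain ⟨f, hf, hXb⟩ := mem_sumAlg.1 hX
  have hf1 : ∀ n, ‖f n‖ ≤ 1 := fun n => (hXb.block_norm_le n).trans hX1
  obtain ⟨y, hy, hy1, hd⟩ := hk (f k) (hf k) (hf1 k)
  set g := Function.update f k y with hg
  have hgm : ∀ n, g n ∈ B n := fun n => by
    rcases eq_or_ne n k with rfl | hn
    · simpa [hg] using hy
    · rw [hg, Function.update_of_ne hn, ← hne n hn]; exact hf n
  have hg1 : ∀ n, ‖g n‖ ≤ 1 := fun n => by
    rcases eq_or_ne n k with rfl | hn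
    · simpa [hg] using hy1
    · rw [hg, Function.update_of_ne hn]; exact hf1 n
  refine ⟨block g 1 hg1, mem_sumAlg.2 ⟨g, hgm, block_isBlock _ _ _⟩, ?_, ?_⟩
  · refine norm_le_of_coord zero_le_one fun v p => ?_
    rw [block_isBlock g 1 hg1 v p]
    refine ((g p.1).le_opNorm _).trans ?_
    gcongr
    exact hg1 _
  · refine norm_le_of_coord hr fun v p => ?_
    have e : (X - block g 1 hg1) v p = (f p.1 - g p.1) (v p) := by
      show X v p - block g 1 hg1 v p = _
      rw [hXb, block_isBlock g 1 hg1 v p]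
      rfl
    rw [e]
    refine ((f p.1 - g p.1).le_opNorm _).trans ?_
    gcongr
    rcases eq_or_ne p.1 k with h | hn
    · rw [hg, h, Function.update_self]; exact hd
    · rw [hg, Function.update_of_ne hn, sub_self, norm_zero]; exact hr

lemma kk_sum_le (M : ∀ n, VonNeumannAlgebra (H n)) (k : ℕ) (N : VonNeumannAlgebra (H k))
    {r : ℝ} (h : kkDist (M k) N < r) :
    kkDist (sumAlg M) (sumAlg (Function.update M k N)) ≤ r := by
  have hr : 0 ≤ r := le_trans Metric.hausdorffDist_nonneg h.le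
  refine kk_le hr ?_ ?_
  · refine half_dist M _ k hr (fun n hn => (Function.update_of_ne hn _ _).symm) ?_
    intro x hx hx1
    obtain ⟨y, hy, hy1, hd⟩ := kk_exists_near h hx hx1
    exact ⟨y, by simpa using hy, hy1, hd.le⟩
  · refine half_dist _ M k hr (fun n hn => Function.update_of_ne hn _ _) ?_
    intro x hx hx1
    rw [Function.update_self] at hx
    obtain ⟨y, hy, hy1, hd⟩ := kk_exists_near (kk_comm (M k) N ▸ h) hx hx1
    exact ⟨y, hy, hy1, hd.le⟩

/-- A single element in slot `k`. -/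
lemma exists_slot (M : ∀ n, VonNeumannAlgebra (H n)) (k : ℕ) {x : H k →L[ℂ] H k}
    (hx : x ∈ M k) :
    ∃ (X : BigSpace H →L[ℂ] BigSpace H) (f : ∀ n, H n →L[ℂ] H n),
      X ∈ sumAlg M ∧ IsBlock X f ∧ f k = x := by
  set f : ∀ n, H n →L[ℂ] H n := Function.update (fun _ => 0) k x with hf
  have hfm : ∀ n, f n ∈ M n := fun n => by
    rcases eq_or_ne n k with rfl | hn
    · simpa [hf] using hx
    · rw [hf, Function.update_of_ne hn]; exact zero_mem _
  have hfb : ∀ n, ‖f n‖ ≤ ‖x‖ := fun n => by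
    rcases eq_or_ne n k with rfl | hn
    · simp [hf]
    · rw [hf, Function.update_of_ne hn, norm_zero]; exact norm_nonneg _
  exact ⟨block f _ hfb, f, mem_sumAlg.2 ⟨f, hfm, block_isBlock _ _ _⟩, block_isBlock _ _ _,
    Function.update_self ..⟩

lemma compress_intertwine (M : ∀ n, VonNeumannAlgebra (H n)) (k : ℕ)
    (N : VonNeumannAlgebra (H k)) (S : (BigSpace H →L[ℂ] BigSpace H)ˣ)
    (hS : (fun X => (S : BigSpace H →L[ℂ] BigSpace H) * X * ↑S⁻¹) '' (sumAlg M : Set _)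
      = (sumAlg (Function.update M k N) : Set _)) :
    ∃ T : H k →L[ℂ] H k,
      ‖T - 1‖ ≤ ‖(S : BigSpace H →L[ℂ] BigSpace H) - 1‖ ∧
      (∀ x ∈ M k, ∃ y ∈ N, T * x = y * T) ∧ (∀ y ∈ N, ∃ x ∈ M k, T * x = y * T) := by
  set S' := (S : BigSpace H →L[ℂ] BigSpace H)
  set T : H k →L[ℂ] H k := prj (k, 0) ∘L S' ∘L inj (k, 0) with hT
  have step : ∀ (X Y : BigSpace H →L[ℂ] BigSpace H) f g, IsBlock X f → IsBlock Y g →
      S' * X = Y * S' → T * f k = g k * T := by
    intro X Y f g hX hY hXY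
    ext x
    show S' (inj (k, 0) (f k x)) (k, 0) = g k (S' (inj (k, 0) x) (k, 0))
    rw [← hX.comp_inj (k, 0) x]
    have := congrArg (fun Z : BigSpace H →L[ℂ] BigSpace H => Z (inj (k, 0) x) (k, 0)) hXY
    exact this.trans (hY _ (k, 0))
  refine ⟨T, ?_, ?_, ?_⟩
  · have e : T - 1 = prj (k, 0) ∘L (S' - 1) ∘L inj (k, 0) := by
      ext x
      show S' (inj (k, 0) x) (k, 0) - x
        = S' (inj (k, 0) x) (k, 0) - (inj (k, 0) x : BigSpace H) (k, 0)
      rw [prj_inj_self]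
    rw [e]
    refine (ContinuousLinearMap.opNorm_comp_le _ _).trans ?_
    refine (mul_le_mul (norm_prj_le _) (ContinuousLinearMap.opNorm_comp_le _ _) (norm_nonneg _)
      zero_le_one).trans ?_
    rw [one_mul]
    exact (mul_le_mul_of_nonneg_left (norm_inj_le _) (norm_nonneg _)).trans (by rw [mul_one])
  · intro x hx
    obtain ⟨X, f, hXm, hXb, hfk⟩ := exists_slot M k hx
    have hY : S' * X * ↑S⁻¹ ∈ (sumAlg (Function.update M k N) : Set _) := hS ▸ ⟨X, hXm, rfl⟩
    obtain ⟨g, hg, hYb⟩ := mem_sumAlg.1 hY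
    refine ⟨g k, by simpa using hg k, ?_⟩
    rw [← hfk]
    exact step X _ f g hXb hYb (by simp [S', mul_assoc])
  · intro y hy
    obtain ⟨Y, g, hYm, hYb, hgk⟩ := exists_slot (Function.update M k N) k (x := y)
      (by simpa using hy)
    have hY : Y ∈ (fun X => S' * X * ↑S⁻¹) '' (sumAlg M : Set _) := by rw [hS]; exact hYm
    obtain ⟨X, hXm, hXY⟩ := hY
    obtain ⟨f, hf, hXb⟩ := mem_sumAlg.1 hXm
    refine ⟨f k, hf k, ?_⟩
    rw [← hgk]
    refine step X Y f g hXb hYb ?_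
    rw [← hXY]
    simp [S', mul_assoc]

end

lemma strong_of_pointwise (h : PointwiseSimilarityKK.{u}) : StrongKK.{u} := by
  intro ε hε
  by_contra hcon
  push Not at hcon
  choose H i1 i2 i3 M N hd hbad using fun k : ℕ => hcon (1 / ((k : ℝ) + 1)) (by positivity)
  obtain ⟨δ, hδ, hS⟩ := h (BigSpace H) (sumAlg M) (sumAlg_properlyInfinite M)
    (min (ε / 17) (1 / 100)) (lt_min (by positivity) (by norm_num))
  obtain ⟨k, hk⟩ := exists_nat_one_div_lt hδ
  obtain ⟨S, hS1, himg⟩ := hS (sumAlg (Function.update M k (N k))) (sumAlg_properlyInfinite _)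
    ((kk_sum_le M k (N k) (hd k)).trans_lt hk)
  obtain ⟨T, hT, h1, h2⟩ := compress_intertwine M k (N k) S himg
  have hη := hT.trans hS1.le
  obtain ⟨v, hv, hv1, hvimg⟩ := unitary_of_similarity (M k) (N k) (min_le_right _ _) T hη h1 h2
  exact hbad k v hv (by linarith [min_le_left (ε / 17) (1 / 100 : ℝ)]) hvimg

lemma separable_bigSpace {H : ℕ → Type u} [∀ n, NormedAddCommGroup (H n)]
    [∀ n, InnerProductSpace ℂ (H n)] [∀ n, CompleteSpace (H n)]
    [∀ n, TopologicalSpace.SeparableSpace (H n)] :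
    TopologicalSpace.SeparableSpace (BigSpace H) := by
  set s : Set (BigSpace H) := ⋃ p : ℕ × ℕ, Set.range (inj (H := H) p)
  have hs : TopologicalSpace.IsSeparable s :=
    TopologicalSpace.IsSeparable.iUnion fun p =>
      TopologicalSpace.isSeparable_range (inj p).continuous
  have hspan := (hs.span (R := ℂ)).closure
  rw [← TopologicalSpace.isSeparable_univ_iff]
  refine hspan.mono fun v _ => ?_
  refine mem_closure_of_tendsto (lp.hasSum_single (by norm_num) v)
    (Filter.Eventually.of_forall fun t => Submodule.sum_mem _ fun p _ => ?_)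
  exact Submodule.subset_span (Set.mem_iUnion.2 ⟨p, v p, rfl⟩)

lemma pointwise_of_strong_sep (h : StrongKKSep.{u}) : PointwiseSimilarityKKSep.{u} := by
  intro H _ _ _ _ M _ ε hε
  obtain ⟨δ, hδ, hd⟩ := h ε hε
  refine ⟨δ, hδ, fun N _ hN => ?_⟩
  obtain ⟨v, hv, hv1, himg⟩ := hd H M N hN
  obtain ⟨h1, h2⟩ := Unitary.mem_iff.1 hv
  exact ⟨⟨v, star v, h2, h1⟩, hv1, himg⟩

lemma strong_of_pointwise_sep (h : PointwiseSimilarityKKSep.{u}) : StrongKKSep.{u} := by
  intro ε hε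
  by_contra hcon
  push Not at hcon
  choose H i1 i2 i3 i4 M N hd hbad using fun k : ℕ => hcon (1 / ((k : ℝ) + 1)) (by positivity)
  haveI : TopologicalSpace.SeparableSpace (BigSpace H) := separable_bigSpace
  obtain ⟨δ, hδ, hS⟩ := h (BigSpace H) (sumAlg M) (sumAlg_properlyInfinite M)
    (min (ε / 17) (1 / 100)) (lt_min (by positivity) (by norm_num))
  obtain ⟨k, hk⟩ := exists_nat_one_div_lt hδ
  obtain ⟨S, hS1, himg⟩ := hS (sumAlg (Function.update M k (N k))) (sumAlg_properlyInfinite _)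
    ((kk_sum_le M k (N k) (hd k)).trans_lt hk)
  obtain ⟨T, hT, h1, h2⟩ := compress_intertwine M k (N k) S himg
  have hη := hT.trans hS1.le
  obtain ⟨v, hv, hv1, hvimg⟩ := unitary_of_similarity (M k) (N k) (min_le_right _ _) T hη h1 h2
  exact hbad k v hv (by linarith [min_le_left (ε / 17) (1 / 100 : ℝ)]) hvimg

end Vale.Agent.P096
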